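import Vale.Agent.P022.H431.Sv.Defs

/-!
P022-L3, [SOLV]: the assembly.
-/

open NumberField Matrix

noncomputable section

namespace Vale.Agent.P022.Sv

open Vale.Agent.P022

/-- [S3] -/
def S3Stmt : Prop := ∀ (k : Type) [Field k] (_ : ∀ x : k, x = 0 ∨ x = 1),
  Group.IsSolvable (GL (Fin 2) k)

/-- the residually solvable case -/
theorem solv_one (hG : GrpStmt) (hI : IndStmt) (hT : TrivStmt) (E : Type)
    [NontriviallyNormedField E] [NormedAlgebra ℚ_[2] E] [FiniteDimensional ℚ_[2] E]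
    (r : GQ →* GL (Fin 2) E) (hc : Continuous r)
    (hu : ∀ p : ℕ, p.Prime → p ≠ 2 → p ≠ 3 → St.UnrAt r p) (h3 : St.PrincipalAt3 r)
    (hs : St.ResSolv r) : St.ResTriv r := by
  obtain ⟨O, k, _, _, π, ρ, hO, hsol, h⟩ := hs
  let ι : k →+* AlgebraicClosure k := algebraMap k (AlgebraicClosure k)
  have : CharP (AlgebraicClosure k) 2 := charP_of_injective_algebraMap ι.injective 2
  let ρ' : GQ →* GL (Fin 2) (AlgebraicClosure k) := (GeneralLinearGroup.map ι).comp ρ
  have htr : ∀ g, (ρ' g : Matrix (Fin 2) (Fin 2) (AlgebraicClosure k)).trace =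
      ι (ρ g : Matrix (Fin 2) (Fin 2) k).trace := by
    intro g
    change (((ρ g : Matrix (Fin 2) (Fin 2) k)).map ι).trace = _
    rw [Matrix.trace_fin_two, Matrix.trace_fin_two, map_add]
    rfl
  have hdet : ∀ g, (ρ' g : Matrix (Fin 2) (Fin 2) (AlgebraicClosure k)).det =
      ι (ρ g : Matrix (Fin 2) (Fin 2) k).det := by
    intro g
    change (((ρ g : Matrix (Fin 2) (Fin 2) k)).map ι).det = _
    rw [Matrix.det_fin_two, Matrix.det_fin_two, map_sub, map_mul, map_mul]
    rfl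
  have hsol' : Group.IsSolvable ρ'.range := by
    have e : ρ'.range = ρ.range.map (GeneralLinearGroup.map ι) := by
      rw [MonoidHom.range_comp]
    rw [e]
    exact Group.isSolvable_of_surjective
      (f := (GeneralLinearGroup.map ι).subgroupMap ρ.range)
      (MonoidHom.subgroupMap_surjective _ _)
  rcases hG (AlgebraicClosure k) GQ ρ' hsol' with ⟨χ₁, χ₂, hχ⟩ | ⟨M, χ₁, χ₂, hM, hχ, h0, m, hm⟩
  · refine hT E r hc hu h3 O hO (AlgebraicClosure k) (ι.comp π) χ₁ χ₂ fun g => ?_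
    obtain ⟨t, d, ht, hd, hπt, hπd⟩ := h g
    refine ⟨t, d, ht, hd, ?_, ?_⟩
    · rw [← (hχ g).1, htr, ← hπt]; rfl
    · rw [← (hχ g).2, hdet, ← hπd]; rfl
  · refine absurd (hI E r hc hu h3 O hO (AlgebraicClosure k) (ι.comp π)
      (fun g => (ρ' g : Matrix (Fin 2) (Fin 2) (AlgebraicClosure k)).trace) (fun g => ?_)
      M χ₁ χ₂ hM hχ h0 m) hm
    obtain ⟨t, d, ht, hd, hπt, hπd⟩ := h g
    refine ⟨t, ht, ?_⟩
    rw [htr, ← hπt]; rfl

/-- **the assembly of [SOLV]** -/
theorem solv_of (hG : GrpStmt) (hI : IndStmt) (hL : LatStmt) (hT : TrivStmt) (h2 : S3Stmt) :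
    SolvStmt := by
  intro E _ _ _ r hc hu h3 hs
  rcases hs with hs | hs
  · exact solv_one hG hI hT E r hc hu h3 hs
  · obtain ⟨O, k, _, _, π, ρ, hO, hsur, hker, h⟩ := hL E r hc
    refine solv_one hG hI hT E r hc hu h3 ⟨O, k, inferInstance, inferInstance, π, ρ, hO, ?_, h⟩
    have hk : ∀ x : k, x = 0 ∨ x = 1 := by
      intro x
      obtain ⟨a, rfl⟩ := hsur x
      rcases hs a ((hO a).1 a.2) with ha | ha
      · exact Or.inl ((hker a).2 ha)
      · right
        have : π (a - 1) = 0 := (hker (a - 1)).2 (by simpa using ha)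
        rwa [map_sub, map_one, sub_eq_zero] at this
    have := h2 k hk
    infer_instance

end Vale.Agent.P022.Sv
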